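import Vale.Agent.P275CM.OD
import Vale.Agent.P275MM.Det
import Vale.Agent.P275MM.Tower
import Vale.Agent.P275HE.Uni

/-! Families of elementary transformations as maps of bundles. -/

set_option linter.unusedSectionVars false
set_option backward.isDefEq.respectTransparency false

open scoped Topology Matrix.Norms.Operator
open Set Filter Metric Matrix
open Vale.Agent.P275GC Vale.Agent.P275GC.At Vale.Agent.P275MO Vale.Agent.P275MM
open Vale.Agent.P275HE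
open Vale.Agent.P275NA (Fm Cy Mn)
open Vale.Agent.P275Z (bor mem_bor diag_mul)
open P275CC

noncomputable section

namespace P275CM

open scoped ComplexOrder in
theorem exists_nm {X n : Type} [TopologicalSpace X] [Fintype n] [DecidableEq n] (V : VB X n)
    (T : TB X n) (P : Cov X) (a : P.ι → V.ι) (b : P.ι → T.ι) (W : P.ι → X → Matrix n n ℂ)
    (ha : ∀ c, P.U c ⊆ V.U (a c)) (hb : ∀ c, P.U c ⊆ T.U (b c))
    (ct : ∀ c, ContinuousOn (W c) (P.U c)) (ne : ∀ c, ∀ x ∈ P.U c, W c x ≠ 0)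
    (law : ∀ c c' x, x ∈ P.U c → x ∈ P.U c' →
      ∃ s : ℂ, W c x * V.g (a c) (a c') x = s • (T.g (b c) (b c') x * W c' x)) :
    ∃ g h1 h2 h3, TB.LI univ (VB.tb ⟨P, g, h1, h2, h3⟩) T ∧ ∀ c c' x, x ∈ P.U c → x ∈ P.U c' →
      (∃ s : ℂ, g c c' x = s • T.g (b c) (b c') x) ∧
        W c x * V.g (a c) (a c') x = g c c' x * W c' x := by
  have hd : ∀ {c c' x}, x ∈ P.U c → x ∈ P.U c' → T.g (b c) (b c') x * W c' x ≠ 0 :=
    fun {c c' x} hc hc' h0 => ne c' x hc' (by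
      rw [← nonsing_inv_mul_cancel_left _ (W c' x) (T.nz _ _ x (hb _ hc) (hb _ hc')).isUnit, h0,
        Matrix.mul_zero])
  set s : P.ι → P.ι → X → ℂ := fun c c' x =>
    ((T.g (b c) (b c') x * W c' x)ᴴ * (W c x * V.g (a c) (a c') x)).trace /
      ((T.g (b c) (b c') x * W c' x)ᴴ * (T.g (b c) (b c') x * W c' x)).trace with hs
  have key : ∀ {c c' x}, x ∈ P.U c → x ∈ P.U c' →
      W c x * V.g (a c) (a c') x = s c c' x • T.g (b c) (b c') x * W c' x := by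
    intro c c' x hc hc'
    obtain ⟨t, ht⟩ := law c c' x hc hc'
    simp only [hs]
    rw [ht, Matrix.mul_smul, trace_smul, smul_eq_mul, mul_div_cancel_right₀ _
      (mt trace_conjTranspose_mul_self_eq_zero_iff.1 (hd hc hc')), Matrix.smul_mul]
  have c1 : ∀ c c', ContinuousOn (fun x => T.g (b c) (b c') x) (P.U c ∩ P.U c') := fun c c' =>
    (T.ct _ _).mono fun _ h => ⟨hb _ h.1, hb _ h.2⟩
  have c2 : ∀ c c', ContinuousOn (fun x => T.g (b c) (b c') x * W c' x) (P.U c ∩ P.U c') :=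
    fun c c' => ctOn_mul (c1 c c') ((ct c').mono inter_subset_right)
  refine ⟨fun c c' x => s c c' x • T.g (b c) (b c') x, fun c c' => ContinuousOn.smul
    ((continuous_id.matrix_trace.comp_continuousOn (ctOn_mul (ctOn_ct (c2 c c'))
      (ctOn_mul ((ct c).mono inter_subset_left)
        ((V.ct _ _).mono fun _ h => ⟨ha _ h.1, ha _ h.2⟩)))).div
      (continuous_id.matrix_trace.comp_continuousOn (ctOn_mul (ctOn_ct (c2 c c')) (c2 c c')))
      fun x h => mt trace_conjTranspose_mul_self_eq_zero_iff.1 (hd h.1 h.2)) (c1 c c'),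
    fun c x hc => ?_, fun c c' c'' x hc hc' hc'' => ?_,
    TB.li_ref (mem_univ _) _ _ b hb fun _ _ _ _ _ => ⟨_, rfl⟩,
    fun c c' x hc hc' => ⟨⟨_, rfl⟩, key hc hc'⟩⟩
  · obtain ⟨t, ht⟩ := T.self (hb c hc)
    have := key hc hc
    rw [V.id _ x (ha c hc), Matrix.mul_one, ht, smul_smul, Matrix.smul_mul, Matrix.one_mul] at this
    change s c c x • _ = _
    rw [ht, smul_smul, ← smul_left_injective ℂ (ne c x hc) ((one_smul _ _).trans this), one_smul]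
  · obtain ⟨t, ht⟩ := T.cc _ _ _ x (hb _ hc) (hb _ hc') (hb _ hc'')
    have := key hc hc''
    rw [← V.cc _ _ _ x (ha _ hc) (ha _ hc') (ha _ hc''), ← Matrix.mul_assoc, key hc hc',
      Matrix.mul_assoc, key hc' hc'', ← Matrix.mul_assoc, smul_mul_smul_comm, ht, smul_smul,
      Matrix.smul_mul, Matrix.smul_mul] at this
    rw [smul_mul_smul_comm, ht, smul_smul, smul_left_injective ℂ (hd hc hc'') this]

variable {C : Type} [TopologicalSpace C] [T2Space C] {n : ℕ} {A : At C} {l : Cy A ℂ} {τ : Ty n}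
  {o : Fin n} {z z' z₂ z₂' : Dat C A.N n} {u u₂ φ φ' : Fm A (Mn n)} {h h' : Mn n}
  {i j : Fin A.N} {c : C}

theorem eq_off_pt (A : At C) {F : Type} [TopologicalSpace F] [T2Space F] {O : Set C}
    (hO : IsOpen O) {f g : C → F} (hf : ContinuousOn f O) (hg : ContinuousOn g O) (x : C)
    (h : ∀ c ∈ O, x ≠ c → f c = g c) : ∀ c ∈ O, f c = g c := fun c hc =>
  eq_of_off A (T := Unit) (hO.preimage continuous_snd) (f := fun p => f p.2) (g := fun p => g p.2)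
    (hf.comp continuousOn_snd fun _ a => a) (hg.comp continuousOn_snd fun _ a => a) (fun _ => x)
    (fun p => h p.2) ((), c) hc

/-- the transformation at the pole, on discs of some radius -/
def HP (A : At C) (l : Cy A ℂ) (o : Fin n) (z z' : Dat C A.N n) (u : Fm A (Mn n)) : Prop :=
  ∃ (r : ℝ) (h1 : 1 < r) (h2 : r ≤ A.R), Good (A.res r h1 h2) l z ∧ Good (A.res r h1 h2) l z' ∧
    Adm (A.res r h1 h2) o z z.x (fun _ => z.R o o) ∧
    Hk (A.res r h1 h2) o z z' z.x (fun _ => z.R o o) u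

theorem Dc_off {r : ℝ} (h1 : 1 < r) (h2 : r ≤ A.R) {x : C} (a : c ∈ Dc A i) (e : x ≠ c) :
    A.e i c ∈ off (A.res r h1 h2) x i :=
  ⟨Dc_ball h1 a, fun d => e (d.symm.trans ((A.e i).left_inv a.1))⟩

theorem HP.det (k : HP A l o z z' u) (a : c ∈ Dc A i) (e : z.x ≠ c) : (u i (A.e i c)).det = 1 := by
  obtain ⟨r, h1, h2, -, -, -, k⟩ := k
  exact k.det i _ (Dc_off h1 h2 a e)

theorem HP.law (k : HP A l o z z' u) (a : c ∈ Dc A i) (b : c ∈ Dc A j) (e : z.x ≠ c) :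
    u i (A.e i c) * z.g i j (A.e i c) = z'.g i j (A.e i c) * u j (A.e j c) := by
  obtain ⟨r, h1, h2, -, -, -, k⟩ := k
  rw [k.law i j _ (Dc_O h1 h2 a b) (Dc_off h1 h2 a e).2, res_tr, tr_e a.1]

theorem HP.iso [Hy A l n] (k : HP A l o z z' u) (k₂ : HP A l o z₂ z₂' u₂) (f : IB A z z₂ φ h)
    (f' : IB A z' z₂' φ' h') {q} (ob : IsOb A l q z') (e : z₂.R o o = z.R o o) :
    ∃ s : ℂ, ∀ i, ∀ c ∈ Dc A i, z.x ≠ c →
      u₂ i (A.e i c) * φ i (A.e i c) = s • (φ' i (A.e i c) * u i (A.e i c)) := by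
  have ex := f.x
  obtain ⟨r, a, b, g, g', ad, k⟩ := k
  obtain ⟨r', a', b', g₂, g₂', -, k₂⟩ := k₂
  obtain ⟨r'', a'', b'', f⟩ := f
  have d := lt_min (lt_min a a') a''
  have l1 : min (min r r') r'' ≤ r := (min_le_left _ _).trans (min_le_left _ _)
  have l2 : min (min r r') r'' ≤ r' := (min_le_left _ _).trans (min_le_right _ _)
  rw [ex, e] at k₂
  obtain ⟨c, c', -, f2, f3⟩ := Hk.iso (A := A.res _ d (l1.trans b))
    (Vale.Agent.P275MB.Good.mono g d l1) (Vale.Agent.P275MB.Good.mono g' d l1)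
    (Vale.Agent.P275MB.Good.mono g₂ d l2) (Vale.Agent.P275MB.Good.mono g₂' d l2) (ad.mono d l1)
    (Vale.Agent.P275MB.IsoBy.mono f d (min_le_right _ _)) e (k.mono d l1) (k₂.mono d l2)
  obtain ⟨s, -, -, hs⟩ := IB.uniq ob f' ⟨_, d, _, f2⟩
  exact ⟨s, fun i y m ne => by
    rw [← f3 i _ (Dc_off d _ m ne), ← Matrix.smul_mul, ← hs i y m]⟩

theorem HP.pole (k : HP A l o z z' u) (a : z.x ∈ Dc A i) {U : Mn n}
    (hU : Tendsto (fun w => (w - A.e i z.x) • u i w) (𝓝[≠] (A.e i z.x)) (𝓝 U)) :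
    (∀ v, U *ᵥ v = 0 ↔ ∃ s : ℂ, v = s • z.σ i *ᵥ Pi.single o 1) ∧
      ∃ s : ℂ, s ≠ 0 ∧ U * z.σ i = s • (z'.σ i * (1 - pe o)) := by
  obtain ⟨r, h1, h2, g, -, ad, k⟩ := k
  have m := Dc_src h1 h2 a
  obtain ⟨U₁, t1, e1⟩ := k.loc i m
  obtain ⟨U₂, s, hs, t2, e2⟩ := k.fr i m
  obtain rfl : U₁ = U := tendsto_nhds_unique t1 hU
  rw [ex, if_pos rfl] at t2
  simp only [pow_one] at t2
  obtain rfl : U₂ = U₁ := tendsto_nhds_unique t2 hU
  have d := g.fr i m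
  have k1 : ∀ v, U₂ *ᵥ v = 0 → ∃ s : ℂ, v = s • z.σ i *ᵥ Pi.single o 1 := fun v hv => by
    obtain ⟨v, rfl⟩ := (bij_of_det d).2 v
    have := e1 _ hv
    rw [val, if_pos rfl] at this
    exact ⟨v o, by rw [← mulVec_smul, ← pe_vec, eig_pe ad.spl ad.nr.smp d this]⟩
  have k2 : U₂.det = 0 := by
    refine tendsto_nhds_unique (continuous_id.matrix_det.continuousAt.tendsto.comp hU) ?_
    have : Tendsto (fun w => (w - A.e i z.x) ^ n) (𝓝[≠] (A.e i z.x)) (𝓝 0) := by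
      have c : Continuous fun w => (w - A.e i z.x) ^ n := by fun_prop
      simpa [o.pos.ne'] using (c.tendsto (A.e i z.x)).mono_left nhdsWithin_le_nhds
    refine this.congr' ?_
    filter_upwards [Vale.Agent.P275MB.off_ev (A := A.res r h1 h2) m] with w hw
    simp [k.det i w hw]
  have k3 : U₂ *ᵥ (z.σ i *ᵥ Pi.single o 1) = 0 := by
    obtain ⟨v, hv, h0⟩ := exists_mulVec_eq_zero_iff.2 k2
    obtain ⟨s, rfl⟩ := k1 v h0
    rw [mulVec_smul, smul_eq_zero] at h0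
    exact h0.resolve_left fun e => hv (by rw [e, zero_smul])
  refine ⟨fun v => ⟨k1 v, fun ⟨s, e⟩ => by rw [e, mulVec_smul, k3, smul_zero]⟩, s, hs, ?_⟩
  rw [← e2, mul_sub, mul_one, col_zero (X := U₂ * z.σ i) (by rw [← mulVec_mulVec, k3]), sub_zero]

theorem alg {M M' g G σ σ' ρ ρ' : Mn n} {κ κ' s t d : ℂ} {k : Fin n} (hk : k ≠ o)
    (e3 : M * G = g * M') (e5 : G * σ' = σ * (t • h)) (e7 : g * ρ' = ρ * (s • h'))
    (e4 : g.det = d ^ n * G.det) (m : M * σ = κ • (ρ * (1 - pe o)))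
    (m' : M' * σ' = κ' • (ρ' * (1 - pe o))) (n1 : σ.det ≠ 0) (n2 : σ'.det ≠ 0) (n3 : ρ.det ≠ 0)
    (n4 : h.det ≠ 0) (n5 : h'.det ≠ 0) (n6 : t ≠ 0) :
    κ ^ n * ρ.det / σ.det * (h k k ^ n / h.det) =
      h' k k ^ n / h'.det * d ^ n * (κ' ^ n * ρ'.det / σ'.det) := by
  have e8 := congrArg (· * σ') e3
  simp only [Matrix.mul_assoc, e5, m'] at e8
  rw [← Matrix.mul_assoc, m, Matrix.mul_smul g, ← Matrix.mul_assoc g, e7, Matrix.smul_mul,
    Matrix.mul_assoc, Matrix.mul_assoc ρ, ← Matrix.mul_smul ρ, ← Matrix.mul_smul ρ] at e8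
  have e9 := congrFun (congrFun (congrArg (ρ⁻¹ * ·) e8) k) k
  simp only [nonsing_inv_mul_cancel_left _ _ n3.isUnit, Matrix.sub_mul,
    Matrix.mul_sub, Matrix.one_mul, Matrix.mul_one, Matrix.smul_apply, Matrix.sub_apply, pe,
    single_mul_apply_of_ne _ _ _ _ _ hk, mul_single_apply_of_ne _ _ _ _ _ hk, sub_zero,
    smul_eq_mul] at e9
  have f5 := congrArg Matrix.det e5
  have f7 := congrArg Matrix.det e7
  have f9 := congrArg (· ^ n) e9
  simp only [Matrix.det_mul, det_smul, Fintype.card_fin, e4, mul_pow] at f5 f7 f9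
  field_simp
  refine mul_left_cancel₀ (pow_ne_zero n n6) ?_
  linear_combination (ρ.det * h'.det * σ'.det) * f9 - κ' ^ n * h' k k ^ n * σ'.det * f7 +
    κ' ^ n * h' k k ^ n * d ^ n * ρ'.det * f5

/-- a family of elementary transformations at the pole -/
structure HD (A : At C) (l : Cy A ℂ) (τ : Ty n) (o : Fin n) (T : Type) [TopologicalSpace T] :
    Type 1 where
  S : Sys A l τ T
  S' : Sys A l τ T
  α : S'.ι → S.ι
  hα : ∀ a, S'.U a ⊆ S.U (α a)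
  u : S'.ι → T → Fm A (Mn n)
  W : S'.ι → T → Fm A (Mn n)
  x : ∀ t, (S'.f t).x = (S.f t).x
  R : ∀ a b t, t ∈ S.U a → t ∈ S.U b → (S.F a t).R o o = (S.F b t).R o o
  hp : ∀ a, ∀ t ∈ S'.U a, HP A l o (S.F (α a) t) (S'.F a t) (u a t)
  cu : ∀ a i, ContinuousOn (fun p : T × C => u a p.1 i (A.e i p.2))
    {p | p.1 ∈ S'.U a ∧ p.2 ∈ Dc A i ∧ (S.f p.1).x ≠ p.2}
  cW : ∀ a i, ContinuousOn (fun p : T × C => W a p.1 i (A.e i p.2))
    {p | p.1 ∈ S'.U a ∧ p.2 ∈ Dc A i ∧ (S.f p.1).x ∈ Dc A i}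
  hW : ∀ a, ∀ t ∈ S'.U a, ∀ i c, c ∈ Dc A i → (S.f t).x ∈ Dc A i → (S.f t).x ≠ c →
    W a t i (A.e i c) = (A.e i c - A.e i (S.f t).x) • u a t i (A.e i c)

namespace HD

variable {T : Type} [TopologicalSpace T] (D : HD A l τ o T)

/-- the pole -/
def xm : C(T, C) := ⟨fun t => (D.S.f t).x, Vale.Agent.P275MB.cont_x.comp D.S.cont⟩

/-- the pole and the point -/
def xp : C(T × C, C × C) := D.xm.prodMap (ContinuousMap.id C)

/-- the index in the cover of `C × C` -/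
def ix (p : D.S'.ι × Fin A.N × Bool) : Option (Fin A.N) := if p.2.2 then some p.2.1 else none

/-- the cover adapted to the graph of the pole -/
def cv : Cov (T × C) where
  ι := D.S'.ι × Fin A.N × Bool
  U p := {y | y.1 ∈ D.S'.U p.1 ∧ y.2 ∈ Dc A p.2.1 ∧
    if p.2.2 then D.xm y.1 ∈ Dc A p.2.1 else D.xm y.1 ≠ y.2}
  op p := by
    refine ((D.S'.op _).preimage continuous_fst).inter
      (((Dc_open _).preimage continuous_snd).inter ?_)
    obtain ⟨a, i, _ | _⟩ := p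
    · exact isOpen_ne_fun (D.xm.continuous.comp continuous_fst) continuous_snd
    · exact (Dc_open i).preimage (D.xm.continuous.comp continuous_fst)
  cov y := by
    obtain ⟨a, m⟩ := D.S'.cov y.1
    obtain ⟨i, m'⟩ := Dc_cov A y.2
    by_cases e : D.xm y.1 = y.2
    · exact ⟨(a, i, true), m, m', e ▸ m'⟩
    · exact ⟨(a, i, false), m, m', e⟩

/-- the local matrices of the map -/
def M (p : D.S'.ι × Fin A.N × Bool) (y : T × C) : Mn n :=
  if p.2.2 then D.W p.1 y.1 p.2.1 (A.e p.2.1 y.2) else D.u p.1 y.1 p.2.1 (A.e p.2.1 y.2)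

variable {D} {p p' : D.S'.ι × Fin A.N × Bool} {y : T × C} {a b : D.S'.ι} {t : T}

theorem mem_od (m : y ∈ D.cv.U p) : D.xp y ∈ odU A (D.ix p) := by
  obtain ⟨a, i, _ | _⟩ := p
  · exact m.2.2
  · exact ⟨m.2.2.1, m.2.1.1⟩

theorem ct_M (p : D.S'.ι × Fin A.N × Bool) : ContinuousOn (D.M p) (D.cv.U p) := by
  obtain ⟨a, i, _ | _⟩ := p
  · exact D.cu a i
  · exact D.cW a i

theorem M_off (m : y ∈ D.cv.U p) (e : D.xm y.1 ≠ y.2) :
    D.M p y = odS A (D.ix p) (D.xp y) • D.u p.1 y.1 p.2.1 (A.e p.2.1 y.2) := by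
  obtain ⟨a, i, _ | _⟩ := p
  · exact (one_smul _ _).symm
  · exact D.hW a _ m.1 i _ m.2.1 m.2.2 e

theorem Fx (m : t ∈ D.S'.U a) : (D.S.F (D.α a) t).x = D.xm t := D.S.x_eq (D.hα a m)

theorem x' (h : D.xm t ∈ Dc A i) : (D.S'.f t).x ∈ Dc A i := by
  rw [D.x t]
  exact h

theorem det_M (m : y ∈ D.cv.U p) (e : D.xm y.1 ≠ y.2) :
    (D.M p y).det = odS A (D.ix p) (D.xp y) ^ n := by
  rw [M_off m e, det_smul, (D.hp _ _ m.1).det m.2.1 (Fx m.1 ▸ e), Fintype.card_fin, mul_one]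

theorem ex_true (m : y ∈ D.cv.U p) (e : D.xm y.1 = y.2) : p = (p.1, p.2.1, true) := by
  obtain ⟨a, i, _ | _⟩ := p
  · exact (m.2.2 e).elim
  · rfl

theorem pole (m : t ∈ D.S'.U a) (mi : D.xm t ∈ Dc A i) :
    (∀ v, D.M (a, i, true) (t, D.xm t) *ᵥ v = 0 ↔
      ∃ s : ℂ, v = s • (D.S.F (D.α a) t).σ i *ᵥ Pi.single o 1) ∧ ∃ s : ℂ, s ≠ 0 ∧
      D.M (a, i, true) (t, D.xm t) * (D.S.F (D.α a) t).σ i =
        s • ((D.S'.F a t).σ i * (1 - pe o)) := by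
  refine (D.hp a t m).pole (Fx m ▸ mi) ?_
  rw [Fx m]
  have h1 := contAt_symm (i := i) (map_src mi.1)
  have e : (A.e i).symm (A.e i (D.xm t)) = D.xm t := (A.e i).left_inv mi.1
  have h2 : ContinuousAt (fun w => D.M (a, i, true) (t, (A.e i).symm w)) (A.e i (D.xm t)) :=
    ContinuousAt.comp (f := fun w => (t, (A.e i).symm w))
      ((ct_M (a, i, true)).continuousAt ((D.cv.op (a, i, true)).mem_nhds ⟨m, e.symm ▸ mi, mi⟩))
      (continuousAt_const.prodMk h1)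
  have h3 := h2.tendsto.mono_left (nhdsWithin_le_nhds (s := {A.e i (D.xm t)}ᶜ))
  rw [e] at h3
  refine h3.congr' ?_
  filter_upwards [self_mem_nhdsWithin,
    nhdsWithin_le_nhds (isOpen_ball.mem_nhds (mem_ball_zero_iff.2 mi.2))] with w w1 w2
  have w3 := ball_subset_ball A.hR.le w2
  have := D.hW a t m i ((A.e i).symm w) ⟨map_tgt w3, by rw [rinv w3]; simpa using w2⟩ mi
    fun d => w1 (by rw [← rinv (i := i) w3, ← d]; rfl)
  change D.W a t i (A.e i ((A.e i).symm w)) = _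
  rw [this, rinv w3]
  rfl

variable [Hy A l n]

theorem law_G (m : y ∈ D.cv.U p) (m' : y ∈ D.cv.U p') : ∃ s : ℂ,
    D.M p y * D.S.G (D.α p.1, p.2.1) (D.α p'.1, p'.2.1) y =
      s • (D.S'.G (p.1, p.2.1) (p'.1, p'.2.1) y * D.M p' y) := by
  obtain ⟨t, c⟩ := y
  obtain ⟨s, hs⟩ := (D.hp _ t m'.1).iso (D.hp _ t m.1) (D.S.ib (D.hα _ m.1) (D.hα _ m'.1))
    (D.S'.ib m.1 m'.1) (D.S'.ob _ t m'.1) (D.R _ _ t (D.hα _ m.1) (D.hα _ m'.1))
  refine ⟨s * odG A (D.ix p) (D.ix p') (D.xp (t, c)), ?_⟩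
  have sl : Continuous fun c : C => (t, c) := by fun_prop
  refine eq_off_pt A (O := (fun c => (t, c)) ⁻¹' (D.cv.U p ∩ D.cv.U p'))
    (((D.cv.op p).inter (D.cv.op p')).preimage sl)
    (f := fun c => D.M p (t, c) * D.S.G (D.α p.1, p.2.1) (D.α p'.1, p'.2.1) (t, c))
    (g := fun c => (s * odG A (D.ix p) (D.ix p') (D.xp (t, c))) •
      (D.S'.G (p.1, p.2.1) (p'.1, p'.2.1) (t, c) * D.M p' (t, c)))
    (ctOn_mul ((ct_M p).comp sl.continuousOn fun _ a => a.1)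
      ((D.S.ct_G _ _).comp sl.continuousOn fun _ a =>
        ⟨⟨D.hα _ a.1.1, a.1.2.1⟩, D.hα _ a.2.1, a.2.2.1⟩))
    ((continuousOn_const.mul (((OD A).ct _ _).comp (D.xp.continuous.comp sl).continuousOn
      fun _ a => ⟨mem_od a.1, mem_od a.2⟩)).smul
      (ctOn_mul ((D.S'.ct_G _ _).comp sl.continuousOn fun _ a =>
        ⟨⟨a.1.1, a.1.2.1⟩, a.2.1, a.2.2.1⟩) ((ct_M p').comp sl.continuousOn fun _ a => a.2)))
    (D.xm t) (fun c a e => ?_) c ⟨m, m'⟩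
  have e' := (Fx m'.1).trans_ne e
  rw [M_off a.1 e, M_off a.2 e, odS_eq (mem_od a.1) (mem_od a.2), Sys.G, Sys.G, Matrix.smul_mul,
    ← Matrix.mul_assoc, hs _ c a.1.2.1 e', Matrix.smul_mul, Matrix.mul_assoc,
    (D.hp _ t m'.1).law a.1.2.1 a.2.2.1 e', Matrix.mul_smul, Matrix.mul_assoc, smul_smul,
    smul_smul]
  congr 1
  ring

theorem M_ne {k : Fin n} (hk : k ≠ o) (m : y ∈ D.cv.U p) : D.M p y ≠ 0 := fun h0 => by
  by_cases e : D.xm y.1 = y.2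
  · obtain ⟨t, c⟩ := y
    obtain rfl : D.xm t = c := e
    rw [ex_true m rfl] at h0
    obtain ⟨-, s, hs, h⟩ := pole m.1 m.2.1
    rw [h0, Matrix.zero_mul, eq_comm, smul_eq_zero] at h
    have := congrArg (((D.S'.F p.1 t).σ p.2.1)⁻¹ * ·) (h.resolve_left hs)
    simp only [nonsing_inv_mul_cancel_left _ _
      (D.S'.det_σ m.1 (x' m.2.1)).isUnit, Matrix.mul_zero] at this
    simpa [pe, hk.symm] using congrFun (congrFun this k) k
  · have := det_M m e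
    have _ : Nonempty (Fin n) := ⟨o⟩
    rw [h0, det_zero] at this
    exact pow_ne_zero _ (odS_ne (mem_od m) e) this.symm

variable (D) in
/-- the bundle of the diagonal along the pole -/
def θ : LB T := (OD A).pb ⟨fun t => (D.xm t, D.xm t), by fun_prop⟩

theorem main [Nc T] [Nc C] (hH : τ.H ≤ bor n) (ho : ∀ a, o ≤ a) {k₀ : Fin n} (hk : k₀ ≠ o) :
    ∃ V' : VB (T × C) (Fin n), TB.LI univ V'.tb D.S'.tb ∧
      (LB.vb (Co.one _ ℂ)).Ex ((D.S.vb (entB hH o) rfl).sum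
        (V'.det.mul (D.S.vb (entB hH o) rfl).det.dual).vb) V' ∧
      V'.det.Iso (LB.mul (LB.pow ((OD A).pb D.xp) n) (D.S.vb (entB hH o) rfl).det) ∧
      ∀ k, k ≠ o → (D.S.lb ((entB hH k).pow n) (Chr.det _) (one_mul n)).Iso
        (LB.mul (D.S'.lb ((entB hH k).pow n) (Chr.det _) (one_mul n)) (D.θ.pow n)) := by
  set V := D.S.vb (entB hH o) rfl with hV
  have ha : ∀ p, D.cv.U p ⊆ V.U (D.α p.1, p.2.1) := fun p y m => ⟨D.hα _ m.1, m.2.1⟩
  obtain ⟨g, h1, h2, h3, li, h4⟩ := exists_nm V D.S'.tb D.cv (fun p => (D.α p.1, p.2.1))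
    (fun p => (p.1, p.2.1)) D.M ha (fun p y m => ⟨m.1, m.2.1⟩) ct_M (fun p y m => M_ne hk m)
    fun p p' y m m' => by
      obtain ⟨s, hs⟩ := law_G m m'
      exact ⟨_, (Matrix.mul_smul _ _ _).trans (by rw [hs, smul_smul]; rfl)⟩
  have h5 : ∀ p p', ∀ y ∈ D.cv.U p ∩ D.cv.U p', (g p p' y).det =
      odG A (D.ix p) (D.ix p') (D.xp y) ^ n * (V.g (D.α p.1, p.2.1) (D.α p'.1, p'.2.1) y).det :=
    fun p p' => eq_of_off A ((D.cv.op p).inter (D.cv.op p')) (ctOn_det (h1 p p'))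
      (((((OD A).ct _ _).comp D.xp.continuous.continuousOn
        fun _ a => ⟨mem_od a.1, mem_od a.2⟩).pow n).mul
        (ctOn_det ((V.ct _ _).mono fun _ a => ⟨ha _ a.1, ha _ a.2⟩))) D.xm fun y a e => by
      have := congrArg Matrix.det (h4 p p' y a.1 a.2).2
      rw [Matrix.det_mul, Matrix.det_mul, det_M a.1 e, det_M a.2 e,
        odS_eq (mem_od a.1) (mem_od a.2), mul_pow, mul_right_comm] at this
      exact (mul_right_cancel₀ (pow_ne_zero _ (odS_ne (mem_od a.2) e)) this).symm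
  have col : ∀ h ∈ τ.H, ∀ a, a ≠ o → h a o = 0 := fun h m a e =>
    mem_bor.1 (hH m) a o ((ho a).lt_of_ne e.symm)
  refine ⟨⟨D.cv, g, h1, h2, h3⟩, li, ?_, LB.iso_ref _ _ D.cv.U (fun p => p)
    (fun p => (D.ix p, (D.α p.1, p.2.1))) D.cv.op D.cv.cov (fun _ => subset_rfl)
    (fun p y m => ⟨mem_od m, ha p m⟩) fun p p' y m m' => h5 p p' y ⟨m, m'⟩, fun k hk => ?_⟩
  · obtain ⟨F, hF, e⟩ := V.homOn_loc ⟨D.cv, g, h1, h2, h3⟩ univ D.cv.U
      (fun p => (D.α p.1, p.2.1)) (fun p => p) D.M D.cv.op (fun y _ => D.cv.cov y) ha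
      (fun _ => subset_rfl) (fun p => (ct_M p).mono inter_subset_left)
      fun p p' y m m' _ => (h4 p p' y m m').2
    have e' : ∀ q p y, y ∈ V.U q → y ∈ D.cv.U p → F q p y = D.M p y * V.g (D.α p.1, p.2.1) q y :=
      fun q p y m m' => by
        rw [e p q p y m' m m' trivial]
        exact congrArg (· * _) ((congrArg (· * _) (h2 p y m')).trans (Matrix.one_mul _))
    have sl : ∀ q q' y, y ∈ V.U q → y ∈ V.U q' → D.xm y.1 = y.2 →
        (D.S.F q.1 y.1).σ q.2 *ᵥ Pi.single o 1 =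
          V.g q q' y *ᵥ ((D.S.F q'.1 y.1).σ q'.2 *ᵥ Pi.single o 1) := by
      rintro q q' ⟨t, c⟩ m m' (rfl : D.xm t = c)
      exact (D.S.vb_col rfl col (fun _ => rfl) m.1 m'.1 m.2 m'.2).symm
    refine VB.hk_ex hF (D := {y | D.xm y.1 = y.2})
      (isClosed_eq (D.xm.continuous.comp continuous_fst) continuous_snd) (fun q p y m m' e => ?_)
      (fun q y => (D.S.F q.1 y.1).σ q.2 *ᵥ Pi.single o 1)
      (fun q => {y | y.1 ∈ D.S.U q.1 ∧ D.xm y.1 ∈ Dc A q.2})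
      (fun q => ((D.S.op _).preimage continuous_fst).inter
        ((Dc_open _).preimage (D.xm.continuous.comp continuous_fst)))
      (fun q y m => ⟨m.1.1, (show D.xm y.1 = y.2 from m.2).symm ▸ m.1.2⟩)
      (fun q => ctOn_mulVec ((D.S.ct_σ' q.1 q.2).comp continuousOn_fst fun _ m => m)
        continuousOn_const) sl (fun q y m e => mulVec_ne (bij_of_det (D.S.det_σ m.1
          (show D.xm y.1 ∈ _ from (show D.xm y.1 = y.2 from e).symm ▸ m.2))).1 (by simp))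
      fun q p y m m' e v => ?_
    · rw [e' q p y m m']
      exact det_mul_ne (by rw [det_M m' e]; exact pow_ne_zero _ (odS_ne (mem_od m') e))
        (V.nz (ha p m') m)
    · rw [e' q p y m m', ← mulVec_mulVec]
      have b := sl _ q y (ha p m') m e
      obtain ⟨t, c⟩ := y
      obtain rfl : D.xm t = c := e
      rw [ex_true m' rfl, (pole m'.1 m'.2.1).1]
      refine exists_congr fun s => ?_
      rw [b, ← mulVec_smul]
      exact (V.bij (ha p m') m).1.eq_iff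
  · have mem : ∀ {q : D.S'.ι × Fin A.N} {t}, t ∈ D.S'.U q.1 ∧ D.xm t ∈ Dc A q.2 →
        (t, D.xm t) ∈ D.cv.U (q.1, q.2, true) := fun m => ⟨m.1, m.2, m.2⟩
    have d1 : ∀ {q : D.S'.ι × Fin A.N} {t}, t ∈ D.S'.U q.1 ∧ D.xm t ∈ Dc A q.2 →
        ((D.S.F (D.α q.1) t).σ q.2).det ≠ 0 := fun m => D.S.det_σ (D.hα _ m.1) m.2
    have d2 : ∀ {q : D.S'.ι × Fin A.N} {t}, t ∈ D.S'.U q.1 ∧ D.xm t ∈ Dc A q.2 →
        ((D.S'.F q.1 t).σ q.2).det ≠ 0 := fun {q t} m => D.S'.det_σ m.1 (x' m.2)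
    set κ : D.S'.ι × Fin A.N → T → ℂ := fun q t => (((D.S'.F q.1 t).σ q.2)⁻¹ *
      (D.M (q.1, q.2, true) (t, D.xm t) * (D.S.F (D.α q.1) t).σ q.2)) k k with hκ
    have e1 : (1 - pe o : Mn n) k k = 1 := by simp [pe, hk.symm]
    have h6 : ∀ {q : D.S'.ι × Fin A.N} {t}, t ∈ D.S'.U q.1 ∧ D.xm t ∈ Dc A q.2 → κ q t ≠ 0 ∧
        D.M (q.1, q.2, true) (t, D.xm t) * (D.S.F (D.α q.1) t).σ q.2 =
          κ q t • ((D.S'.F q.1 t).σ q.2 * (1 - pe o)) := fun {q t} m => by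
      obtain ⟨-, s, hs, h⟩ := pole m.1 m.2
      have : κ q t = s := by
        simp only [hκ]
        rw [h, Matrix.mul_smul, nonsing_inv_mul_cancel_left _ _ (d2 m).isUnit, Matrix.smul_apply,
          e1, smul_eq_mul, mul_one]
      exact this ▸ ⟨hs, h⟩
    have c1 : ∀ q : D.S'.ι × Fin A.N, ContinuousOn (fun t => (D.S.F (D.α q.1) t).σ q.2)
        {t | t ∈ D.S'.U q.1 ∧ D.xm t ∈ Dc A q.2} := fun q =>
      (D.S.ct_σ' _ q.2).mono fun _ m => ⟨D.hα _ m.1, m.2⟩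
    have c2 : ∀ q : D.S'.ι × Fin A.N, ContinuousOn (fun t => (D.S'.F q.1 t).σ q.2)
        {t | t ∈ D.S'.U q.1 ∧ D.xm t ∈ Dc A q.2} := fun q =>
      (D.S'.ct_σ' _ q.2).mono fun t m => ⟨m.1, x' m.2⟩
    refine LB.iso_loc _ _ (κ := D.S'.ι × Fin A.N)
      (fun q => {t | t ∈ D.S'.U q.1 ∧ D.xm t ∈ Dc A q.2}) (fun q => D.α q.1)
      (fun q => (q.1, some q.2)) (fun q t => κ q t ^ n * ((D.S'.F q.1 t).σ q.2).det /
        ((D.S.F (D.α q.1) t).σ q.2).det)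
      (fun q => (D.S'.op _).inter ((Dc_open _).preimage D.xm.continuous)) (fun t => ?_)
      (fun q t m => D.hα _ m.1) (fun q t m => ⟨m.1, m.2.1, m.2.1⟩)
      (fun q => (((ctOn_ent (ctOn_mul (ctOn_inv (c2 q) fun _ => d2) (ctOn_mul
        ((ct_M _).comp (f := fun t => (t, D.xm t)) (by fun_prop) fun _ => mem) (c1 q))) k k).pow
        n).mul (ctOn_det (c2 q))).div (ctOn_det (c1 q)) fun _ => d1) (fun q q' t m m' => ?_)
      fun q t m => div_ne_zero (mul_ne_zero (pow_ne_zero _ (h6 m).1) (d2 m)) (d1 m)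
    · obtain ⟨a, m⟩ := D.S'.cov t
      obtain ⟨i, m'⟩ := Dc_cov A (D.xm t)
      exact ⟨(a, i), m, m'⟩
    obtain ⟨⟨s, e2⟩, e3⟩ := h4 _ _ _ (mem m) (mem m')
    have e6 := D.S'.G_σ m.1 m'.1 (x' m.2) (x' m'.2)
    rw [D.x t] at e6
    exact alg hk e3 (D.S.vb_σ (entB hH o) rfl (D.hα _ m.1) (D.hα _ m'.1) m.2 m'.2)
      (by rw [e2, Matrix.smul_mul, Matrix.mul_smul]; exact congrArg (s • ·) e6)
      (h5 _ _ _ ⟨mem m, mem m'⟩) (h6 m).2 (h6 m').2 (d1 m) (d1 m') (d2 m)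
      (D.S.det_h (D.hα _ m.1) (D.hα _ m'.1)) (D.S'.det_h m.1 m'.1)
      (inv_ne_zero (D.S.chr_ne (entB hH o) (D.hα _ m.1) (D.hα _ m'.1)))

end HD

end P275CM
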