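import Vale.Agent.P275CM.Hx
import Vale.Agent.P275MM.Unv
import Vale.Agent.P275S.Taut

/-! The Hecke formula. -/

set_option linter.unusedSectionVars false
set_option backward.isDefEq.respectTransparency false

open Set CategoryTheory
open Vale.Agent.P275GC Vale.Agent.P275GC.At Vale.Agent.P275MO Vale.Agent.P275MM
open Vale.Agent.P275HE Vale.Agent.P275OI Vale.Agent.P275Z
open Vale.Agent.P275NA (Cy)
open P275S (Hd KG)
open P275CC

noncomputable section

namespace P275CM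

variable {C : Type} [TopologicalSpace C] [Nc C] {n : ℕ} {A : At C} {l : Cy A ℂ} {τ : Ty n}
  {o : Fin n} {T : Type} [TopologicalSpace T] [Nc T] [Hy A l n] {θ : Th}

/-- the line bundles of the flag -/
abbrev yb (S : Sys A l τ T) (hH : τ.H ≤ bor n) (k : Fin n) : LB T :=
  S.lb ((entB hH k).pow n) (Chr.det _) (one_mul n)

theorem sum_yb (S : Sys A l τ T) (hH : τ.H ≤ bor n) (o : Fin n) : ∑ k, θ.c (yb S hH k) = 0 :=
  Th.sum_y o (S.fr_in.mono fun _ a => hH a) fun _ => S.ch_lb _ _ _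

theorem li_vb (S : Sys A l τ T) (χ : Chr τ.H) (he) : TB.LI univ (S.vb χ he).tb S.tb :=
  TB.li_ref (mem_univ _) _ _ (fun p => p) (fun _ => subset_rfl) fun _ _ _ _ _ => ⟨_, rfl⟩

theorem p1_fb (S : Sys A l τ T) (hH : τ.H ≤ bor n) (o : Fin n) :
    θ.p1 (S.fb (entB hH o) rfl) = -θ.c (yb S hH o) := by
  rw [Th.p1_det, eq_neg_iff_add_eq_zero, ← Th.c_mul, ← Th.c_one]
  refine Th.c_iso (LB.iso_ref _ _ S.U (fun a => (a, a)) (fun _ => ()) S.op S.cov
    (fun _ _ h => ⟨h, h⟩) (fun _ => subset_univ _) fun a b t ma mb => ?_)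
  have h1 : S.h a b t o o ≠ 0 := S.chr_ne (entB hH o) ma mb
  have h2 := S.det_h ma mb
  change Matrix.det ((S.h a b t o o)⁻¹ • S.h a b t) * (S.h a b t o o ^ n / (S.h a b t).det) = 1
  rw [Matrix.det_smul, Fintype.card_fin, inv_pow]
  field_simp

theorem p1_vb [ConnectedSpace C] (S : Sys A l τ T) (hH : τ.H ≤ bor n) (o : Fin n) (hl : A.Cc l) :
    θ.p1 (S.vb (entB hH o) rfl) = θ.pe ContinuousMap.snd (θ.c (lC hl)) - θ.pe ContinuousMap.fst
      (θ.c (yb S hH o) + θ.pe (ContinuousMap.snd.comp S.pole) (θ.c (lC hl))) := by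
  obtain ⟨M, h⟩ := S.exists_det_vb (entB hH o) rfl hl
  have e := (Th.p1_det (τ := θ) _).trans (Th.c_iso h)
  rw [Th.c_mul, Th.c_pb, Th.c_pb] at e
  have e' := Th.p1_iso (τ := θ) (S.fb_pole (entB hH o) rfl)
  rw [p1_fb, Th.p1_pb, e, map_add, ← Th.pe_comp, ← Th.pe_comp] at e'
  rw [e, show θ.c M = -(θ.c (yb S hH o) + θ.pe (ContinuousMap.snd.comp S.pole) (θ.c (lC hl))) by
    rw [neg_add, e', add_neg_cancel_right]
    exact (Th.pe_id _).symm, map_neg]
  ring

theorem dg_cc (L L' : LB T) : θ.Dg 4 (θ.c L * θ.c L').1 := (Th.dg_c1 L).mul (Th.dg_c1 L') rfl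

namespace HD

variable (D : HD A l τ o T) (hH : τ.H ≤ bor n) (ho : ∀ a, o ≤ a) {k₀ : Fin n} (hk : k₀ ≠ o)

include ho hk

theorem y_eq : θ.c (yb D.S' hH o) = θ.c (yb D.S hH o) + ((n : ℂ) * (n - 1)) •
    θ.pe D.xm (θ.c ((OD A).pb ⟨fun c => (c, c), by fun_prop⟩)) := by
  obtain ⟨-, -, -, -, h⟩ := main (D := D) hH ho hk
  have e := sum_yb (θ := θ) D.S hH o
  have e' := sum_yb (θ := θ) D.S' hH o
  rw [← Finset.add_sum_erase _ _ (Finset.mem_univ o)] at e e'
  rw [Finset.sum_congr rfl fun k m => (Th.c_iso (h k (Finset.mem_erase.1 m).1)).trans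
    (Th.c_mul _ _), Finset.sum_add_distrib, Finset.sum_const,
    Finset.card_erase_of_mem (Finset.mem_univ o), Finset.card_univ, Fintype.card_fin, Th.c_pow,
    nsmul_eq_mul, nsmul_eq_mul, Nat.cast_pred o.pos] at e
  rw [← Th.c_pb, Algebra.smul_def, map_mul, map_sub, map_natCast, map_one]
  change _ = _ + _ * θ.c D.θ
  linear_combination e' - e

theorem p2_eq [ConnectedSpace C] (hl : A.Cc l) : θ.p2 D.S'.tb.End = θ.p2 D.S.tb.End +
    ((2 * n - 2) * n ^ 2 : ℂ) • θ.pe D.xp (θ.c (OD A) * θ.c (OD A)) -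
    (4 * n : ℂ) • θ.pe D.xp (θ.c ((lC hl).pb ContinuousMap.snd) * θ.c (OD A)) +
    (4 * n : ℂ) • (θ.pe ContinuousMap.fst (θ.c (yb D.S hH o) + θ.pe D.xm (θ.c (lC hl))) *
      θ.pe D.xp (θ.c (OD A))) := by
  obtain ⟨V', li, ex, dt, -⟩ := main (D := D) hH ho hk
  have e := Th.c_iso (τ := θ) dt
  rw [Th.c_mul, Th.c_pow, Th.c_pb, ← Th.p1_det, ← Th.p1_det] at e
  rw [← Th.p2_li li, Th.p2_hk ex, Th.p2_li (li_vb _ _ _), e, add_sub_cancel_right,
    p1_vb D.S hH o hl, map_mul, map_mul, Th.c_pb, ← Th.pe_comp, nsmul_eq_mul]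
  simp only [Algebra.smul_def, map_mul, map_sub, map_pow, map_natCast, map_ofNat,
    Fintype.card_fin]
  change _ - 4 * (θ.pe (ContinuousMap.snd.comp D.xp) _ - θ.pe _ (_ + θ.pe D.xm _)) * _ = _
  ring

end HD

variable (A) in
/-- **OP**: the class of a point does not vanish -/
def OP : Prop := ∃ x, cq (lbC A (cc_ox A x)) ≠ 0

variable {κ : HH C} {lam : HH C →ₗ[ℂ] ℂ}

theorem int_OD [ConnectedSpace C] (L : Lam κ lam) (op : OP A) :
    ∃ c : ℂ, c ≠ 0 ∧ L.int C (cq (OD A)) = c • 1 := by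
  obtain ⟨x, hx⟩ := op
  obtain ⟨c, hc⟩ := P275S.Hd_zero_conn (X := TopCat.of C)
    ((L.prd C).sl_mem L.off (m := 2) (zero_add 2) (cq_mem (OD A)))
  refine ⟨c, ?_, hc⟩
  rintro rfl
  have e := L.int_pb (ContinuousMap.const C x) (cq (OD A))
  have e1 : pq ((ContinuousMap.const C x).prodMap (ContinuousMap.id C)) (cq (OD A)) =
      pq ContinuousMap.fst 1 * pq ContinuousMap.snd (cq (lbC A (cc_ox A x))) := by
    rw [map_one, one_mul, ← cq_pb, ← cq_pb]
    exact congrArg Subtype.val (Th.c_iso (τ := th) ((OD_pt x).pb ContinuousMap.snd))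
  rw [e1, L.int_mul, show L.int C (cq (OD A)) = _ from hc, zero_smul, pq_zero] at e
  exact hx (by rw [L.top 2 le_rfl _ (cq_mem _), P275S.smul_one_eq_zero e, zero_smul])

theorem lin {M N : Type} [AddCommGroup M] [Module ℂ M] [AddCommGroup N] [Module ℂ N]
    (I : M →ₗ[ℂ] N) {P' P u v w : M} {α β r s t c : ℂ} {y k : N}
    (h : P' = P + α • u - β • v + β • w) (hu : I u = r • k) (hv : I v = s • k)
    (hw : I w = c • (y + t • k)) :
    I P' = I P + ((β * c) • y + (α * r - β * s + β * c * t) • k) := by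
  rw [h, map_add, map_sub, map_add, map_smul, map_smul, map_smul, hu, hv, hw]
  module

/-- integration over the curve of even classes -/
def intE (L : Lam κ lam) (T : Type) [TopologicalSpace T] [Nc T] : th.E (T × C) →ₗ[ℂ] HH T :=
  (L.int T).comp (th.Ev (T × C)).val.toLinearMap

theorem intE_val (L : Lam κ lam) (v : th.E (T × C)) : intE L T v = L.int T v.1 := rfl

theorem int_four (L : Lam κ lam) (x : C(T, C)) {v : th.E (C × C)} (hv : th.Dg 4 v.1) :
    intE L T (th.pe (x.prodMap (ContinuousMap.id C)) v) = lam (L.int C v.1) • pq x κ := by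
  rw [intE_val, pe_val, L.int_pb, ← pq_smul]
  exact congrArg (pq x)
    (L.top 2 le_rfl _ ((L.prd C).sl_mem L.off (m := 4) rfl (KG.mem_deg_iff_pr.2 hv)))

theorem int_two (L : Lam κ lam) (x : C(T, C)) {v : th.E (C × C)} {c : ℂ}
    (e : L.int C v.1 = c • 1) (u : th.E T) : intE L T (th.pe ContinuousMap.fst u *
      th.pe (x.prodMap (ContinuousMap.id C)) v) = c • u.1 := by
  refine (intE_val _ _).trans (((L.prd T).sl_mul_left L.off even_two u.1 (pq _ v.1)).trans ?_)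
  refine (congrArg ((show HH T from u.1) * ·) ((L.int_pb x _).trans (congrArg _ e))).trans ?_
  rw [pq_smul, map_one]
  exact (mul_smul_comm _ _ _).trans (congrArg _ (mul_one _))

theorem val_add (L : Lam κ lam) (x : C(T, C)) (M : LB T) (N : LB C) :
    (th.c M + th.pe x (th.c N)).1 = cq M + lam (cq N) • pq x κ :=
  congrArg (cq M + ·) ((congrArg (pq x) (L.top 2 le_rfl _ (cq_mem N))).trans (pq_smul _ _ _))

theorem HD.cE_eq [ConnectedSpace C] (D : HD A l τ o T) (hH : τ.H ≤ bor n) (ho : ∀ a, o ≤ a)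
    {k₀ : Fin n} (hk : k₀ ≠ o) (hl : A.Cc l) (L : Lam κ lam) (op : OP A) :
    ∃ a b : ℂ, a ≠ 0 ∧ L.cE D.S' = L.cE D.S + (a • cq (yb D.S hH o) + b • pq D.xm κ) := by
  obtain ⟨c, hc, e⟩ := int_OD L op
  have m := int_two L D.xm (v := th.c (OD A)) e (th.c (yb D.S hH o) + th.pe D.xm (th.c (lC hl)))
  rw [val_add L] at m
  have h := lin (intE L T) (D.p2_eq (θ := th) hH ho hk hl) (int_four L D.xm (dg_cc _ _))
    (int_four L D.xm (dg_cc _ _)) m
  rw [intE_val, intE_val] at h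
  exact ⟨_, _, mul_ne_zero (mul_ne_zero (by norm_num) (Nat.cast_ne_zero.2 o.pos.ne')) hc, h⟩

theorem cq_yb (S : Sys A l τ T) (hH : τ.H ≤ bor n) (g : C(T, Mod A l τ)) (e : S.f = g) :
    cq (yb S hH o) = pq g (yE A l τ hH o).1 :=
  (congrArg Subtype.val (Th.c_iso (τ := th) (Sys.lb_iso (e.trans (univ_pb_f g).symm) _ _ _))).trans
    (cq_pb g (Yb A l τ hH o))

theorem cE_univ (L : Lam κ lam) (S : Sys A l τ T) (g : C(T, Mod A l τ)) (e : S.f = g) :
    L.cE S = pq g (L.cE (univ A l τ)) :=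
  (L.cE_iso (Sys.end_iso (e.trans (univ_pb_f g).symm))).trans (L.cE_pb _ g)

theorem nc_sTp (hn : 2 ≤ n) : Nc (sTp A l hn) :=
  ⟨(IsLocallyClosed.inter (isClosed_eq (Complex.continuous_im.comp
    Vale.Agent.P275MB.cont_lam) continuous_const).isLocallyClosed (isOpen_lt continuous_const
      (Complex.continuous_im.comp ((continuous_apply _).comp
        Vale.Agent.P275MB.cont_η))).isLocallyClosed).locallyCompactSpace,
    inferInstance, inferInstance⟩

/-- **HKF** -/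
theorem hkf {d : ℤ} (hS : Std A l n d) (hn : 2 ≤ n) (cv : CURV C) (op : OP A) : HKF A l hn := by
  intro ph κ e hκ h0 he
  have := hS.conn
  have := hS.cpt
  have := nc_sTp (A := A) (l := l) hn
  obtain ⟨lam, L⟩ := exists_lam cv hκ h0
  obtain rfl := L.isE_iff.1 he
  obtain ⟨D, e1, e2⟩ := exists_hd hn (hty hn) (P275CC.inc (sTp A l hn)) fun t => sTp_om t.2
  have ho : ∀ a, o0 hn ≤ a := fun a => Nat.zero_le _
  have hk : (⟨1, hn⟩ : Fin n) ≠ o0 hn := fun e => one_ne_zero (congrArg Fin.val e)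
  have ex : pq D.xm κ = P275S.pb (jT A l hn) (P275S.pb (xx A l _) κ) := by
    rw [P275S.pb_comp]
    exact congrArg (pq · κ) (ContinuousMap.ext fun t => congrArg Mod.x (congrFun e1 t))
  have y1 : cq (yb D.S le_rfl (o0 hn)) = P275S.pb (jT A l hn) (y0 A l hn _ le_rfl) :=
    cq_yb _ _ _ e1
  obtain ⟨a, b, ha, h⟩ := D.cE_eq le_rfl ho hk hS.cc L op
  refine ⟨a, b, n * (n - 1) * lam (cq ((OD A).pb ⟨fun c => (c, c), by fun_prop⟩)), ha, ?_, ?_⟩
  · rw [P275S.pb_comp, map_add, map_add, map_smul, map_smul, ← ex, ← y1]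
    exact (cE_univ L _ (φ1 ph ≫ jT A l hn).hom e2).symm.trans (h.trans
      (congrArg (· + _) (cE_univ L _ _ e1)))
  · rw [P275S.pb_comp, map_add, map_smul, ← ex, ← y1, mul_smul, ← pq_smul _ (lam _),
      ← L.top 2 le_rfl _ (cq_mem _)]
    exact (cq_yb _ _ (φ1 ph ≫ jT A l hn).hom e2).symm.trans
      (congrArg Subtype.val (D.y_eq (θ := th) le_rfl ho hk))

end P275CM
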