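import Vale.Agent.P275CM.Hd
import Vale.Agent.P275HE.Fin

/-! Existence of the families of elementary transformations. -/

set_option linter.unusedSectionVars false
set_option backward.isDefEq.respectTransparency false

open scoped Topology Matrix.Norms.Operator
open Set Filter Metric Matrix
open Vale.Agent.P275GC Vale.Agent.P275GC.At Vale.Agent.P275MO Vale.Agent.P275MM
open Vale.Agent.P275HE
open Vale.Agent.P275NA (Fm Cy Mn)
open P275CC

noncomputable section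

namespace P275CM

variable {C : Type} [TopologicalSpace C] [T2Space C] {n : ℕ} {A : At C} {l : Cy A ℂ} {τ : Ty n}
  {o : Fin n} {j : Fin τ.m} {κ : ℝ} {T : Type} [TopologicalSpace T]

theorem exists_hd [hy : Hy A l n] [Nc T] (hn : 2 ≤ n) (ht : HTy τ o j κ) (μ : C(T, Mod A l τ))
    (om : ∀ t, μ t ∈ Om A l τ j) :
    ∃ D : HD A l τ o T, D.S.f = μ ∧ D.S'.f = fun t => phi o (μ t) := by
  choose F hF fa using lift hy.kur μ.continuous
  choose r h1 h2 V hV h F' u W f f' ch cu cW H using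
    fun t => famW hn ht (F t) t (fa t) fun s => (hF t s).symm ▸ om s
  have nb : ∀ {t s}, s ∈ interior (V t) → V t ∈ 𝓝 s := mem_interior_iff_mem_nhds.1
  have d : ∀ t, ∀ s ∈ V t, (h t s).det ≠ 0 := fun t s m => (H t s m).2.1 ▸ one_ne_zero
  have f1 := fun t => Vale.Agent.P275MB.FamOn.act (A := A.res _ (h1 t) (h2 t)) (f t) (ch t) (d t)
  have ob : ∀ t, ∀ s ∈ V t, IsOb A l τ.q ((F t s).1.act (h t s)) := fun t s m =>
    isOb_act (F t s).2 (d t s m) (conj_mem τ (H t s m).1 (d t s m) (F t s).2.2)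
  have pt : ∀ t s m, Ob.pt (τ := τ) ⟨_, ob t s m⟩ = (F t s).pt := fun t s m =>
    pt_eq_ib.2 ⟨_, _, (H t s m).1, IB.act _ _⟩
  obtain ⟨S, ρ, e, hS⟩ := Pre.exists_sys (A := A) (l := l) (τ := τ)
    ⟨⟨T, fun t => interior (V t), fun _ => isOpen_interior,
      fun t => ⟨t, mem_interior_iff_mem_nhds.2 (hV t)⟩⟩, μ, fun t s => (F t s).1.act (h t s),
      fun t s m => ⟨_, h1 t, h2 t, _, nb m, f1 t⟩, fun t s m => ob t s (interior_subset m),
      fun t s m => (pt t s (interior_subset m)).trans (hF t s)⟩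
  obtain ⟨S', ρ', e', hS'⟩ := Pre.exists_sys (A := A) (l := l) (τ := τ)
    ⟨S.toCov, fun t => phi o (μ t), fun a s => (F' (ρ a) s).1,
      fun a s m => ⟨_, h1 _, h2 _, _, nb ((hS a).1 m), f' _⟩, fun a s _ => (F' (ρ a) s).2,
      fun a s m => (H _ s (interior_subset ((hS a).1 m))).2.2.1.trans (congrArg _ (hF _ s))⟩
  have mV : ∀ {a t}, t ∈ S'.U a → t ∈ V (ρ (ρ' a)) := fun m =>
    interior_subset ((hS _).1 ((hS' _).1 m))
  have ex : ∀ t s, (F t s).1.x = (S.f s).x := fun t s => by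
    rw [e]
    exact congrArg Mod.x (hF t s)
  have cp : ∀ i, ContinuousOn (fun p : T × C => (p.1, A.e i p.2)) {p | p.2 ∈ Dc A i} := fun i =>
    continuousOn_fst.prodMk ((Dc_ct i).comp continuousOn_snd fun _ b => b)
  refine ⟨⟨S, S', ρ', fun a => (hS' a).1, fun a => u (ρ (ρ' a)), fun a => W (ρ (ρ' a)),
    fun t => by rw [e, e']; exact (psi_inv _).2,
    fun a b t ma mb => ht.oo (z := ⟨_, S.ob a t ma⟩) (z₂ := ⟨_, S.ob b t mb⟩)
      ((S.pt a t ma).trans (S.pt b t mb).symm), fun a t m => ?_,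
    fun a i => (cu _ i).comp ((cp i).mono fun _ b => b.2.1) fun p b =>
      ⟨mV b.1, Dc_off _ _ b.2.1 (ex _ _ ▸ b.2.2)⟩,
    fun a i => (cW _ i).comp ((cp i).mono fun _ b => b.2.1) fun p b => ⟨mV b.1, trivial⟩,
    fun a t m i c mc mx ne => ?_⟩, e, e'⟩
  · rw [(hS _).2, (hS' _).2]
    obtain ⟨-, -, -, k, ad, -⟩ := H _ t (mV m)
    rw [← ht.oo (pt _ t (mV m))] at k ad
    exact ⟨_, h1 _, h2 _, (f1 _).good t (mV m), (f' _).good t (mV m), ad, k⟩
  · rw [← ex (ρ (ρ' a))] at mx ne ⊢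
    exact ((H _ t (mV m)).2.2.2.2.2 i (Dc_src _ _ mx)).1 _ (Dc_off _ _ mc ne)

end P275CM
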