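import Vale.Agent.P275GC.Ox
import Vale.Agent.P275CC.Hk

/-! The line bundle of the diagonal of a curve. -/

set_option linter.unusedSectionVars false
set_option backward.isDefEq.respectTransparency false

open Set Topology Filter Metric
open Vale.Agent.P275GC Vale.Agent.P275GC.At P275CC

noncomputable section

namespace P275CM

variable {C : Type} [TopologicalSpace C] [T2Space C] (A : At C)

/-- the cover of `C × C` -/
def odU : Option (Fin A.N) → Set (C × C)
  | some i => (A.e i).source ×ˢ (A.e i).source
  | none => {p | p.1 ≠ p.2}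

/-- the local equations of the diagonal -/
def odS : Option (Fin A.N) → C × C → ℂ
  | some i => fun p => A.e i p.2 - A.e i p.1
  | none => fun _ => 1

/-- the transition functions -/
def odG : Option (Fin A.N) → Option (Fin A.N) → C × C → ℂ
  | some i, some j => fun p => (dslope (A.tr i j) (A.e i p.1) (A.e i p.2))⁻¹
  | i, j => fun p => odS A i p / odS A j p

variable {A} {i j k : Option (Fin A.N)} {p : C × C}

theorem odS_ne (h : p ∈ odU A i) (e : p.1 ≠ p.2) : odS A i p ≠ 0 := by
  rcases i with _ | i
  · exact one_ne_zero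
  · exact sub_ne_zero.2 fun a => e ((A.e i).injOn h.2 h.1 a).symm

theorem ct_odS (i : Option (Fin A.N)) : ContinuousOn (odS A i) (odU A i) := by
  rcases i with _ | i
  · exact continuousOn_const
  · exact ((A.e i).continuousOn.comp continuousOn_snd fun _ h => h.2).sub
      ((A.e i).continuousOn.comp continuousOn_fst fun _ h => h.1)

theorem odG_of_ne (hi : p ∈ odU A i) (hj : p ∈ odU A j) (e : p.1 ≠ p.2) :
    odG A i j p = odS A i p / odS A j p := by
  rcases i with _ | i
  · rfl
  rcases j with _ | j
  · rfl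
  change (dslope _ _ _)⁻¹ = (A.e i p.2 - A.e i p.1) / (A.e j p.2 - A.e j p.1)
  rw [dslope_of_ne _ (sub_ne_zero.1 (odS_ne hi e)), slope_def_field, inv_div, tr_e hi.1, tr_e hi.2]

theorem ex_some (h : p ∈ odU A i) (e : p.1 = p.2) : ∃ j, i = some j := by
  rcases i with _ | i
  · exact (h e).elim
  · exact ⟨i, rfl⟩

theorem odG_diag {i j : Fin A.N} (e : p.1 = p.2) :
    odG A (some i) (some j) p = (A.d i j (A.e i p.1))⁻¹ := by
  change (dslope _ _ _)⁻¹ = _
  rw [← e, dslope_same, At.d]

variable (A) in
/-- the line bundle of the diagonal -/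
def OD : LB (C × C) where
  ι := Option (Fin A.N)
  U := odU A
  op i := by
    rcases i with _ | i
    · exact isOpen_ne_fun continuous_fst continuous_snd
    · exact (A.e i).open_source.prod (A.e i).open_source
  cov p := by
    by_cases e : p.1 = p.2
    · obtain ⟨i, hi, -⟩ := A.cov p.1
      exact ⟨some i, hi, e ▸ hi⟩
    · exact ⟨none, e⟩
  g := odG A
  ct i j := by
    rcases i with _ | i
    · exact (continuousOn_const.div ((ct_odS j).mono inter_subset_right)
        fun _ h => odS_ne h.2 h.1).congr fun _ h => odG_of_ne h.1 h.2 h.1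
    rcases j with _ | j
    · exact ((ct_odS _).mono inter_subset_left).div continuousOn_const fun _ _ => one_ne_zero
    refine ContinuousOn.inv₀ (fun p h => ?_) fun p h =>
      dslope_ne (mem_O h.1.1 h.2.1) (mem_O h.1.2 h.2.2)
    exact (ContinuousAt.comp (f := fun p : C × C => (A.e i p.1, A.e i p.2)) (x := p)
      (df_dslope (O_open i j) (A.hol i j) (p := (_, _)) (mem_O h.1.1 h.2.1)
        (mem_O h.1.2 h.2.2)).continuousAt
      ((((A.e i).continuousAt h.1.1).comp continuousAt_fst).prodMk
        (((A.e i).continuousAt h.1.2).comp continuousAt_snd))).continuousWithinAt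
  id i p h := by
    by_cases e : p.1 = p.2
    · obtain ⟨i, rfl⟩ := ex_some h e
      rw [odG_diag e, A.cc_d.one i _ (map_src h.1), inv_one]
    · rw [odG_of_ne h h e, div_self (odS_ne h e)]
  cc i j k p hi hj hk := by
    by_cases e : p.1 = p.2
    · obtain ⟨i, rfl⟩ := ex_some hi e
      obtain ⟨j, rfl⟩ := ex_some hj e
      obtain ⟨k, rfl⟩ := ex_some hk e
      rw [odG_diag e, odG_diag e, odG_diag e,
        A.cc_d.mul i j k _ (mem_O hi.1 hj.1) (mem_O hi.1 hk.1), tr_e hi.1, mul_inv]
    · rw [odG_of_ne hi hj e, odG_of_ne hj hk e, odG_of_ne hi hk e,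
        div_mul_div_cancel₀ (odS_ne hj e)]

theorem odS_eq (hi : p ∈ odU A i) (hj : p ∈ odU A j) : odS A i p = odG A i j p * odS A j p := by
  by_cases e : p.1 = p.2
  · obtain ⟨i, rfl⟩ := ex_some hi e
    obtain ⟨j, rfl⟩ := ex_some hj e
    simp [odS, e]
  · rw [odG_of_ne hi hj e, div_mul_cancel₀ _ (odS_ne hj e)]

theorem sec_OD : (OD A).Sec univ (odS A) :=
  ⟨fun i => (ct_odS i).mono inter_subset_left, fun _ _ _ hi hj _ => odS_eq hi hj⟩

variable (A) in
/-- the line bundle of a holomorphic cocycle -/
def lbC {l : Fin A.N → Fin A.N → ℂ → ℂ} (h : A.Cc l) : LB C where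
  ι := Fin A.N
  U i := (A.e i).source
  op i := (A.e i).open_source
  cov c := (A.cov c).imp fun _ h => h.1
  g i j c := l i j (A.e i c)
  ct i j := (h.hol i j).continuousOn.comp ((A.e i).continuousOn.mono inter_subset_left)
    fun _ a => mem_O a.1 a.2
  id i _ a := h.one i _ (map_src a)
  cc i j k c a b d := by rw [h.mul i j k _ (mem_O a b) (mem_O a d), tr_e a]

/-- the slice at a point is the bundle of the point -/
theorem OD_pt (x : C) : LB.Iso ((OD A).pb ⟨fun c => (x, c), by fun_prop⟩) (lbC A (cc_ox A x)) := by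
  classical
  refine LB.iso_ref _ _ (fun i : Fin A.N => (A.e i).source)
    (fun i => if x ∈ (A.e i).source then some i else none) (fun i => i)
    (fun i => (A.e i).open_source) (fun c => (A.cov c).imp fun _ h => h.1) (fun i c h => ?_)
    (fun _ => subset_rfl) fun i j c hi hj => ?_
  · change (x, c) ∈ odU A _
    split_ifs with a
    · exact ⟨a, h⟩
    · rintro (rfl : x = c)
      exact a h
  · change odG A _ _ (x, c) = A.ox x x i j (A.e i c)
    by_cases a : x ∈ (A.e i).source <;> by_cases b : x ∈ (A.e j).source <;>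
      simp [a, b, ox, sg, odG, odS, tr_e hi]

theorem neBot_pt (A : At C) (x : C) : (𝓝[≠] x).NeBot := by
  obtain ⟨i, hi, -⟩ := A.cov x
  have h : Tendsto (A.e i).symm (𝓝[≠] (A.e i x)) (𝓝[≠] x) := by
    refine tendsto_nhdsWithin_iff.2 ⟨?_, ?_⟩
    · have := (contAt_symm (i := i) (map_src hi)).tendsto
      rw [(A.e i).left_inv hi] at this
      exact this.mono_left nhdsWithin_le_nhds
    · filter_upwards [self_mem_nhdsWithin,
        nhdsWithin_le_nhds (isOpen_ball.mem_nhds (map_src hi))] with w a b c
      exact a (by rw [← rinv (i := i) b, c]; rfl)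
  exact h.neBot

/-- continuous functions which agree off the graph of a map to the curve are equal -/
theorem eq_of_off (A : At C) {T F : Type} [TopologicalSpace T] [TopologicalSpace F] [T2Space F]
    {O : Set (T × C)} (hO : IsOpen O) {f g : T × C → F} (hf : ContinuousOn f O)
    (hg : ContinuousOn g O) (x : T → C) (h : ∀ p ∈ O, x p.1 ≠ p.2 → f p = g p) :
    ∀ p ∈ O, f p = g p := fun p hp => by
  have := neBot_pt A p.2
  have c : ContinuousAt (fun w => (p.1, w)) p.2 := by fun_prop
  by_cases e : x p.1 = p.2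
  · refine tendsto_nhds_unique_of_eventuallyEq (l := 𝓝[≠] p.2)
      (((hf.continuousAt (hO.mem_nhds hp)).tendsto.comp c).mono_left nhdsWithin_le_nhds)
      (((hg.continuousAt (hO.mem_nhds hp)).tendsto.comp c).mono_left nhdsWithin_le_nhds) ?_
    filter_upwards [self_mem_nhdsWithin, nhdsWithin_le_nhds (c (hO.mem_nhds hp))] with w a b
    exact h (p.1, w) b fun d => a (d.symm.trans e)
  · exact h p hp e

end P275CM
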